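import Vale.Agent.P321.Final

open Vale.Agent.P321 Filter in
theorem Vale.Agent.Results.P321.Superpoly.result (q : ℝ) (h0 : 0 < q) (h1 : q < 1) :
    (∀ n : ℕ, ∃ m, Works q n m) ∧
    (∃ n₀ : ℕ, ∀ n : ℕ, n₀ ≤ n → (n : ℝ) ^ (Real.log (Real.log n) / 1536) ≤ (T q n : ℝ)) ∧
    ¬ ∃ (C : ℝ) (d : ℕ), ∀ n : ℕ, 1 ≤ n → (T q n : ℝ) ≤ C * (n : ℝ) ^ d := by
  obtain ⟨n₀, hn₀⟩ := lower h0 h1
  have h : ∀ n : ℕ, n₀ ≤ n → (n : ℝ) ^ (Real.log (Real.log n) / 1536) ≤ (T q n : ℝ) :=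
    fun n hn => hn₀ n hn _ (Nat.sInf_mem (works_exists h0 h1 n))
  refine ⟨works_exists h0 h1, ⟨n₀, h⟩, ?_⟩
  rintro ⟨C, d, hC⟩
  have t : Tendsto (fun n : ℕ => Real.log (Real.log n)) atTop atTop :=
    Real.tendsto_log_atTop.comp (Real.tendsto_log_atTop.comp tendsto_natCast_atTop_atTop)
  obtain ⟨n, ⟨a, b⟩, c, e⟩ := (((t.eventually_ge_atTop (1536 * (d + 1))).and
    (eventually_ge_atTop n₀)).and ((eventually_ge_atTop 1).and
    (tendsto_natCast_atTop_atTop.eventually_gt_atTop C))).exists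
  have c' : (1 : ℝ) ≤ n := by exact_mod_cast c
  have k : (n : ℝ) ^ (((d + 1 : ℕ) : ℝ)) ≤ (n : ℝ) ^ (Real.log (Real.log n) / 1536) :=
    Real.rpow_le_rpow_of_exponent_le c' (by push_cast; linarith)
  rw [Real.rpow_natCast, pow_succ] at k
  have := (k.trans (h n b)).trans (hC n c)
  nlinarith [pow_pos (show (0 : ℝ) < n by linarith) d]
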